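import Vale.Agent.P164.Main

open MeasureTheory ProbabilityTheory Set Filter Topology
open scoped NNReal ENNReal

namespace Vale.Agent.Results.P164.Gauge

open Vale.Agent.P164

theorem result (κ : ℝ) (h0 : 0 < κ) (h8 : κ < 8) :
    (∃ h : ℝ → ℝ, IsGauge h ∧ ∀ᶠ r in 𝓝[>] (0 : ℝ), h r = gaugeFn κ r) ∧
    ∀ h : ℝ → ℝ, IsGauge h →
      (∃ c C : ℝ, 0 < c ∧ ∀ᶠ r in 𝓝[>] (0 : ℝ), c * gaugeFn κ r ≤ h r ∧ h r ≤ C * gaugeFn κ r) →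
      ∀ (Ω : Type) [MeasurableSpace Ω] (P : Measure Ω) (B : ℝ≥0 → Ω → ℝ), IsBrownianReal B P →
        ∀ γ : Ω → ℝ≥0 → ℂ, (∀ᵐ ω ∂P, Generates (γ ω) fun t => √κ * B t ω) →
          ∀ᵐ ω ∂P, ∀ s t : ℝ≥0, 0 < s → s < t →
            0 < hausH h (γ ω '' Icc s t) ∧ hausH h (γ ω '' Icc s t) < ⊤ :=
  ⟨exists_gauge h0 h8, fun _ hh ⟨_, _, hc, hl⟩ _ _ _ _ hB _ hγ => main h0 h8 hh hc hl hB hγ⟩

end Vale.Agent.Results.P164.Gauge
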